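import Crest.Agent.R269.C.C1.H

/-! Row 269, block C1 (owner helper84): the analytic subalgebra.  Statements frozen. -/

set_option autoImplicit false
set_option linter.unusedSectionVars false
set_option linter.unusedVariables false

noncomputable section

namespace Crest.Agent.R269.C1

open Set Metric Filter Topology MeasureTheory
open scoped InnerProductSpace ComplexConjugate

/-- `x = ∑ cf j x • E j`, apply the continuous linear map `x ↦ cf k (x * y)`, `cf_E_mul` -/
theorem cf_mul_neg {x y : H} (hx : ∀ k < 0, cf k x = 0) (hy : ∀ k < 0, cf k y = 0) : ∀ k < 0, cf k (x * y) = 0 := by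
  intro k hk
  refine ((hasSum_E x).mapL ((cf k).comp ((ContinuousLinearMap.mul ℂ H).flip y))).unique ?_
  convert hasSum_zero with j
  simp only [ContinuousLinearMap.comp_apply, ContinuousLinearMap.flip_apply, ContinuousLinearMap.mul_apply',
    map_smul, cf_E_mul, smul_eq_mul]
  by_cases hj : j < 0
  · rw [hx j hj, zero_mul]
  · rw [hy _ (by omega), mul_zero]

theorem cf_const (c : ℂ) : ∀ k < 0, cf k (algebraMap ℂ H c) = 0 := by
  intro k hk
  rw [Algebra.algebraMap_eq_smul_one, ← E_zero, map_smul, cf_E, if_neg (by omega), smul_zero]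

def SA : Subalgebra ℂ H where
  carrier := {x | ∀ k < 0, cf k x = 0}
  mul_mem' := cf_mul_neg
  add_mem' hx hy k hk := by rw [map_add, hx k hk, hy k hk, add_zero]
  algebraMap_mem' := cf_const

theorem mem_SA {x : H} : x ∈ SA ↔ ∀ k < 0, cf k x = 0 := Iff.rfl

theorem isClosed_SA : IsClosed (SA : Set H) := by
  have : (SA : Set H) = ⋂ k, ⋂ _ : k < 0, cf k ⁻¹' {0} := by
    ext x
    simp [mem_SA]
  rw [this]
  exact isClosed_iInter fun k => isClosed_iInter fun _ => isClosed_singleton.preimage (cf k).continuous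

instance : CompleteSpace SA := isClosed_SA.completeSpace_coe

def zz : SA := ⟨E 1, fun k hk => by rw [cf_E, if_neg (by omega)]⟩

theorem coe_zz_pow (n : ℕ) : ((zz ^ n : SA) : H) = E n := by
  induction n with
  | zero => rw [pow_zero, Nat.cast_zero, E_zero]; rfl
  | succ n ih => rw [pow_succ, Subalgebra.coe_mul, ih, Nat.cast_succ, ← E_mul]; rfl

theorem norm_zz_pow (n : ℕ) : ‖zz ^ n‖ ≤ 1 + n := by
  change ‖((zz ^ n : SA) : H)‖ ≤ _
  rw [coe_zz_pow]
  simpa using norm_E n

theorem aA_nat {M : Type} [AddCommMonoid M] [TopologicalSpace M] {u : ℤ → M} {s : M} (h : HasSum u s)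
    (h0 : ∀ k < 0, u k = 0) : HasSum (fun n : ℕ => u n) s :=
  ((Nat.cast_injective (R := ℤ)).hasSum_iff fun k hk =>
    h0 k (lt_of_not_ge fun c => hk ⟨k.toNat, Int.toNat_of_nonneg c⟩)).2 h

/-- `hasSum_E`, `Function.Injective.hasSum_iff` for `Nat.cast : ℕ → ℤ`, and the subtype embedding (`hasSum_subtype..`/`IsInducing.hasSum_iff`) -/
theorem hasSum_zz (a : SA) : HasSum (fun n : ℕ => cf n (a : H) • zz ^ n) a := by
  refine (Topology.IsInducing.hasSum_iff (g := SA.val) Topology.IsInducing.subtypeVal _ _).1 ?_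
  convert aA_nat (hasSum_E (a : H)) fun k hk => by rw [a.2 k hk, zero_smul] using 2 with n
  · rw [← coe_zz_pow]
    rfl
  · rfl

theorem A_ext {B : Type} [NormedAddCommGroup B] [NormedSpace ℂ B] {S T : SA →L[ℂ] B}
    (h : ∀ n : ℕ, S (zz ^ n) = T (zz ^ n)) : S = T := by
  ext a
  refine ((hasSum_zz a).mapL S).unique ?_
  simpa only [map_smul, h] using (hasSum_zz a).mapL T

/-- `A_ext` twice -/
theorem map_mul_of_pow {B : Type} [NormedCommRing B] [NormedAlgebra ℂ B] {T : SA →L[ℂ] B} {b : B}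
    (h : ∀ n : ℕ, T (zz ^ n) = b ^ n) (x y : SA) : T (x * y) = T x * T y := by
  have h1 : ∀ (n : ℕ) (y : SA), T (zz ^ n * y) = b ^ n * T y := fun n y =>
    DFunLike.congr_fun (A_ext (S := T.comp (ContinuousLinearMap.mul ℂ SA (zz ^ n)))
      (T := (ContinuousLinearMap.mul ℂ B (b ^ n)).comp T) fun m => by
        simp only [ContinuousLinearMap.comp_apply, ContinuousLinearMap.mul_apply', ← pow_add, h]) y
  exact DFunLike.congr_fun (A_ext (S := T.comp ((ContinuousLinearMap.mul ℂ SA).flip y))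
      (T := ((ContinuousLinearMap.mul ℂ B).flip (T y)).comp T) fun m => by
        simp only [ContinuousLinearMap.comp_apply, ContinuousLinearMap.flip_apply,
          ContinuousLinearMap.mul_apply', h1, h]) x

open Classical in
/-- retraction to the closed disc -/
def rt (z : ℂ) : ℂ := if ‖z‖ ≤ 1 then z else 0

theorem norm_rt (z : ℂ) : ‖rt z‖ ≤ 1 := by
  unfold rt; split_ifs with h <;> simp [h]

theorem rt_eq {z : ℂ} (h : ‖z‖ ≤ 1) : rt z = z := if_pos h

theorem norm_rt_pow (z : ℂ) (k : ℤ) : ‖rt z ^ k.toNat‖ ≤ 1 := by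
  rw [norm_pow]; exact pow_le_one₀ (norm_nonneg _) (norm_rt z)

def dilH (z : ℂ) : H →L[ℂ] H := (exists_mult (norm_rt_pow z)).choose

theorem cf_dilH (z : ℂ) (x : H) (k : ℤ) : cf k (dilH z x) = rt z ^ k.toNat * cf k x :=
  (exists_mult (norm_rt_pow z)).choose_spec.1 x k

theorem norm_dilH (z : ℂ) (x : H) : ‖dilH z x‖ ≤ 3 * ‖x‖ := (exists_mult (norm_rt_pow z)).choose_spec.2 x

def dilL (z : ℂ) : SA →L[ℂ] SA :=
  ((dilH z).comp SA.toSubmodule.subtypeL).codRestrict SA.toSubmodule fun a k hk => by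
    change cf k (dilH z a) = 0
    rw [cf_dilH, a.2 k hk, mul_zero]

theorem coe_dilL (z : ℂ) (a : SA) : (dilL z a : H) = dilH z a := rfl

theorem dilL_pow (z : ℂ) (n : ℕ) : dilL z (zz ^ n) = (rt z • zz) ^ n := by
  refine Subtype.ext (H_ext fun k => ?_)
  rw [smul_pow, coe_dilL, cf_dilH, Subalgebra.coe_smul, map_smul, coe_zz_pow, cf_E]
  split_ifs with c
  · rw [c, Int.toNat_natCast, smul_eq_mul]
  · simp

/-- dilations -/
def dilA (z : ℂ) : SA →ₐ[ℂ] SA :=
  AlgHom.ofLinearMap (dilL z).toLinearMap (by simpa using dilL_pow z 0) (map_mul_of_pow (dilL_pow z))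

theorem coe_dilA (z : ℂ) (a : SA) : (dilA z a : H) = dilH z a := rfl

/-- boundary values -/
def val (θ : ℝ) : H →ₐ[ℂ] ℂ := (ContinuousMap.evalAlgHom ℂ ℂ (θ : TT)).comp fn

theorem val_apply (θ : ℝ) (x : H) : val θ x = fn x (θ : TT) := rfl

/-- values in the closed disc -/
def ev (z : ℂ) : SA →ₐ[ℂ] ℂ := (val 0).comp (SA.val.comp (dilA z))

theorem ev_apply (z : ℂ) (a : SA) : ev z a = fn (dilH z a) 0 := rfl

theorem hasSum_ev {z : ℂ} (hz : ‖z‖ ≤ 1) (a : SA) : HasSum (fun n : ℕ => cf n (a : H) * z ^ n) (ev z a) := by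
  convert aA_nat (hasSum_val (dilH z a) 0) fun k hk => by rw [cf_dilH, a.2 k hk, mul_zero, zero_mul] using 2 with n
  · rw [cf_dilH, rt_eq hz, Int.toNat_natCast, fourier_eval_zero, mul_one, mul_comm]
  · rfl

theorem summable_cf_nat (x : H) : Summable fun n : ℕ => ‖cf n x‖ := by
  exact (summable_cf x).comp_injective (Nat.cast_injective (R := ℤ))

theorem norm_ev (z : ℂ) (a : SA) : ‖ev z a‖ ≤ 3 * ‖a‖ := by
  refine ((fn (dilH z a)).norm_coe_le_norm 0).trans (le_trans ?_ (norm_dilH z a))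
  rw [norm_def]
  exact le_add_of_nonneg_right (norm_nonneg _)

def evL (z : ℂ) : SA →L[ℂ] ℂ := (ev z).toLinearMap.mkContinuous 3 (norm_ev z)

theorem evL_apply (z : ℂ) (a : SA) : evL z a = ev z a := rfl

theorem ev_zz {z : ℂ} (hz : ‖z‖ ≤ 1) : ev z zz = z := by
  have h := dilL_pow z 1
  rw [pow_one, pow_one, rt_eq hz] at h
  rw [ev_apply, ← coe_dilL, h, Subalgebra.coe_smul, map_smul]
  change z * (fourier 1 : CC) 0 = z
  rw [fourier_eval_zero, mul_one]

theorem ev_val (a : SA) (θ : ℝ) : ev (circleMap 0 1 θ) a = val θ a := by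
  refine (hasSum_ev (by simp) a).unique ?_
  convert aA_nat (hasSum_val (a : H) θ) fun k hk => by rw [a.2 k hk, zero_mul] using 3 with n
  · rw [fourier_coe, zpow_natCast]
  · rfl

theorem ev_dilA (a : SA) {w z : ℂ} (hw : ‖w‖ ≤ 1) (hz : ‖z‖ ≤ 1) : ev z (dilA w a) = ev (w * z) a := by
  refine (hasSum_ev hz _).unique ?_
  convert hasSum_ev (z := w * z) (by rw [norm_mul]; exact mul_le_one₀ hw (norm_nonneg _) hz) a using 2 with n
  rw [coe_dilA, cf_dilH, rt_eq hw, Int.toNat_natCast, mul_pow]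
  ring

/-- `differentiableOn_tsum_of_summable_norm`, `continuousOn_tsum`, `closure_ball` -/
theorem ev_diff (a : SA) : DiffContOnCl ℂ (fun z => ev z a) (ball 0 1) := by
  have hb : ∀ (n : ℕ), ∀ z ∈ closedBall (0 : ℂ) 1, ‖cf n (a : H) * z ^ n‖ ≤ ‖cf n (a : H)‖ := fun n z hz => by
    rw [norm_mul, norm_pow]
    exact mul_le_of_le_one_right (norm_nonneg _) (pow_le_one₀ (norm_nonneg _) (mem_closedBall_zero_iff.1 hz))
  have e : ∀ z ∈ closedBall (0 : ℂ) 1, ev z a = ∑' n : ℕ, cf n (a : H) * z ^ n := fun z hz =>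
    (hasSum_ev (mem_closedBall_zero_iff.1 hz) a).tsum_eq.symm
  refine ⟨(Complex.differentiableOn_tsum_of_summable_norm (summable_cf_nat a) (fun n => by fun_prop) isOpen_ball
    fun n z hz => hb n z (ball_subset_closedBall hz)).congr fun z hz => e z (ball_subset_closedBall hz), ?_⟩
  rw [closure_ball _ one_ne_zero]
  exact (continuousOn_tsum (fun n => by fun_prop) (summable_cf_nat a) hb).congr e

def pm (k : ℤ) : ℂ := if 0 < k then 1 else if k = 0 then 1 / 2 else 0

theorem norm_pm (k : ℤ) : ‖pm k‖ ≤ 1 := by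
  unfold pm; split_ifs <;> norm_num

def proj : H →L[ℂ] SA :=
  (exists_mult norm_pm).choose.codRestrict SA.toSubmodule fun x k hk => by
    rw [(exists_mult norm_pm).choose_spec.1, pm, if_neg (by omega), if_neg (by omega), zero_mul]

theorem cf_proj (x : H) (k : ℤ) : cf k (proj x : H) = pm k * cf k x := (exists_mult norm_pm).choose_spec.1 x k

theorem proj_add (x : H) (h : star x = x) : (proj x : H) + star (proj x : H) = x := by
  refine H_ext fun k => ?_
  have e := cf_star k x
  rw [h] at e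
  rw [map_add, cf_star, cf_proj, cf_proj, map_mul, ← e, ← add_mul]
  have : pm k + conj (pm (-k)) = 1 := by
    unfold pm
    rcases lt_trichotomy k 0 with c | c | c
    · rw [if_neg (by omega), if_neg (by omega), if_pos (by omega), map_one, zero_add]
    · subst c
      norm_num [Complex.ext_iff]
    · rw [if_pos c, if_neg (by omega), if_neg (by omega), map_zero, add_zero]
  rw [this, one_mul]

end Crest.Agent.R269.C1
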