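import Crest.Agent.R269.C.Defs

/-! Row 269, block C1 (owner helper84): Fourier tools on the circle.  Statements frozen. -/

set_option autoImplicit false
set_option linter.unusedSectionVars false
set_option linter.unusedVariables false

noncomputable section

namespace Crest.Agent.R269.C1

open Set Metric Filter Topology MeasureTheory
open scoped InnerProductSpace ComplexConjugate

instance factT : Fact (0 < 2 * Real.pi) := ⟨Real.two_pi_pos⟩

abbrev TT : Type := AddCircle (2 * Real.pi)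
abbrev CC : Type := C(TT, ℂ)
abbrev hm : Measure TT := AddCircle.haarAddCircle
abbrev L2 : Type := Lp ℂ 2 hm

def toL : CC →L[ℂ] L2 := ContinuousMap.toLp 2 hm ℂ

def ee (k : ℤ) : L2 := toL (fourier k)

/-- Fourier coefficients -/
def cL (k : ℤ) : L2 →L[ℂ] ℂ := innerSL ℂ (ee k)

/-- multiplication of an `L²` function by a continuous function -/
def mulL : CC →L[ℂ] L2 →L[ℂ] L2 :=
  ((ContinuousLinearMap.mul ℂ ℂ).holderL hm ⊤ 2 2).comp (ContinuousMap.toLp ⊤ hm ℂ)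

variable {f f' : CC} {g g' : L2}

theorem coe_toL (f : CC) : toL f =ᵐ[hm] f := by
  exact ContinuousMap.coeFn_toLp hm f

theorem coe_mulL (f : CC) (g : L2) : mulL f g =ᵐ[hm] fun x => f x * g x := by
  filter_upwards [(ContinuousLinearMap.mul ℂ ℂ).coeFn_holder (r := 2) (ContinuousMap.toLp ⊤ hm ℂ f) g,
    ContinuousMap.coeFn_toLp (p := ⊤) (𝕜 := ℂ) hm f] with x h1 h2
  refine h1.trans ?_
  rw [h2]; rfl

/-- `Lp.norm_le_mul_norm_of_ae_le_mul` -/
theorem norm_mulL (f : CC) (g : L2) : ‖mulL f g‖ ≤ ‖f‖ * ‖g‖ := by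
  refine Lp.norm_le_mul_norm_of_ae_le_mul ?_
  filter_upwards [coe_mulL f g] with x h
  rw [h, norm_mul]
  exact mul_le_mul_of_nonneg_right (f.norm_coe_le_norm x) (norm_nonneg _)

theorem norm_toL (f : CC) : ‖toL f‖ ≤ ‖f‖ := by
  have h := Lp.norm_le_of_ae_bound (f := toL f) (norm_nonneg f) (by
    filter_upwards [coe_toL f] with x h
    rw [h]; exact f.norm_coe_le_norm x)
  simpa [measureUnivNNReal] using h

theorem mulL_toL (f f' : CC) : mulL f (toL f') = toL (f * f') := by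
  refine Lp.ext ?_
  filter_upwards [coe_mulL f (toL f'), coe_toL f', coe_toL (f * f')] with x h1 h2 h3
  rw [h1, h2, h3]; rfl

theorem toL_star (f : CC) : toL (star f) = star (toL f) := by
  refine Lp.ext ?_
  filter_upwards [coe_toL (star f), coe_toL f, Lp.coeFn_star (toL f)] with x h1 h2 h3
  rw [h1, h3, Pi.star_apply, h2]; rfl

theorem norm_star_L2 (g : L2) : ‖star g‖ = ‖g‖ := by
  have h : ∀ᵐ x ∂hm, ‖(star g : L2) x‖ = ‖g x‖ := by
    filter_upwards [Lp.coeFn_star g] with x h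
    rw [h, Pi.star_apply, norm_star]
  exact le_antisymm (Lp.norm_le_norm_of_ae_le (h.mono fun _ h => h.le))
    (Lp.norm_le_norm_of_ae_le (h.mono fun _ h => h.ge))

theorem toL_inj : Function.Injective toL := by
  exact ContinuousMap.toLp_injective hm

theorem fourier_mul (j k : ℤ) : (fourier j * fourier k : CC) = fourier (j + k) := by
  ext x; exact fourier_add.symm

theorem fourier_star (k : ℤ) : (star (fourier k) : CC) = fourier (-k) := by
  ext x; exact fourier_neg.symm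

theorem fourier_coe (k : ℤ) (θ : ℝ) : (fourier k : CC) (θ : TT) = circleMap 0 1 θ ^ k := by
  rw [fourier_coe_apply, circleMap, ← Complex.ofReal_one.symm, zero_add, one_mul, ← Complex.exp_int_mul]
  congr 1
  have : (Real.pi : ℂ) ≠ 0 := by exact_mod_cast Real.pi_ne_zero
  push_cast; field_simp

/-- `fourierBasis_repr`, `HilbertBasis.repr_apply_apply`, `coe_fourierBasis` -/
theorem cL_eq (k : ℤ) (g : L2) : cL k g = fourierCoeff g k := by
  rw [← fourierBasis_repr, HilbertBasis.repr_apply_apply, coe_fourierBasis]; rfl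

theorem norm_cL (k : ℤ) (g : L2) : ‖cL k g‖ ≤ ‖g‖ := by
  have h1 : ‖ee k‖ ≤ 1 := (norm_toL _).trans_eq (fourier_norm k)
  exact (norm_inner_le_norm (ee k) g).trans (mul_le_of_le_one_left (norm_nonneg _) h1)

theorem cL_ee (k j : ℤ) : cL k (ee j) = if k = j then 1 else 0 := by
  exact orthonormal_iff_ite.1 (orthonormal_fourier (T := 2 * Real.pi)) k j

theorem cL_mulL_fourier (k j : ℤ) (g : L2) : cL k (mulL (fourier j) g) = cL (k - j) g := by
  rw [cL_eq, cL_eq, fourierCoeff, fourierCoeff]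
  refine integral_congr_ae ?_
  filter_upwards [coe_mulL (fourier j) g] with x h
  rw [h, smul_eq_mul, smul_eq_mul, ← mul_assoc, ← fourier_add]
  congr 3; ring

theorem cL_star (k : ℤ) (g : L2) : cL k (star g) = conj (cL (-k) g) := by
  rw [cL_eq, cL_eq, fourierCoeff, fourierCoeff, ← integral_conj]
  refine integral_congr_ae ?_
  filter_upwards [Lp.coeFn_star g] with x h
  rw [h, smul_eq_mul, smul_eq_mul, map_mul, neg_neg, fourier_neg]; rfl

theorem hasSum_ee (g : L2) : HasSum (fun k => cL k g • ee k) g := by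
  simp only [cL_eq]
  exact hasSum_fourier_series_L2 g

theorem hasSum_sq (g : L2) : HasSum (fun k => ‖cL k g‖ ^ 2) (‖g‖ ^ 2) := by
  have h := (fourierBasis (T := 2 * Real.pi)).hasSum_inner_mul_inner g g
  rw [inner_self_eq_norm_sq_to_K] at h
  have h2 := h.mapL Complex.reCLM
  convert h2 using 1
  · funext k
    rw [coe_fourierBasis, ← inner_conj_symm, Complex.conj_mul']
    change ‖cL k g‖ ^ 2 = ((‖cL k g‖ : ℂ) ^ 2).re
    rw [← Complex.ofReal_pow, Complex.ofReal_re]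
  · change _ = ((‖g‖ : ℂ) ^ 2).re
    rw [← Complex.ofReal_pow, Complex.ofReal_re]

theorem L2_ext (h : ∀ k, cL k g = cL k g') : g = g' := by
  exact (hasSum_ee g).unique (by simpa only [h] using hasSum_ee g')

/-- Riesz-Fischer: `fourierBasis.repr.symm ⟨b, memℓp_gen ..⟩` -/
theorem exists_L2 {b : ℤ → ℂ} (hb : Summable fun k => ‖b k‖ ^ 2) : ∃ g : L2, ∀ k, cL k g = b k := by
  have hb' : Memℓp b 2 := memℓp_gen (by simpa using hb)
  refine ⟨(fourierBasis (T := 2 * Real.pi)).repr.symm ⟨b, hb'⟩, fun k => ?_⟩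
  rw [cL_eq, ← fourierBasis_repr, LinearIsometryEquiv.apply_symm_apply]

theorem hasSum_fourier (h : Summable fun k => ‖cL k (toL f)‖) : HasSum (fun k => cL k (toL f) • fourier k) f := by
  have e : ∀ k, cL k (toL f) = fourierCoeff f k := fun k => (cL_eq k _).trans (fourierCoeff_toLp f k)
  simp only [e] at h ⊢
  exact hasSum_fourier_series_of_summable h.of_norm

theorem integral_mul_ee (g : L2) (k : ℤ) : ∫ x, g x * ee k x ∂hm = cL (-k) g := by
  rw [cL_eq, fourierCoeff]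
  refine integral_congr_ae ?_
  filter_upwards [coe_toL (fourier k)] with x h
  rw [ee, h, neg_neg, smul_eq_mul, mul_comm]

theorem integral_mul_eq (g g' : L2) : ∫ x, g x * g' x ∂hm = ⟪star g, g'⟫_ℂ := by
  rw [L2.inner_def]
  refine integral_congr_ae ?_
  filter_upwards [Lp.coeFn_star g] with x h
  rw [h]; simp [mul_comm]

/-- weighted Cauchy-Schwarz (`Real.inner_le_Lp_mul_Lq_tsum_of_nonneg`, or finite sums and `summable_of_sum_le`) -/
theorem cs {w : ℤ → ℝ} {W : ℝ} (hw : ∀ k, 0 ≤ w k) (hW : 0 ≤ W) (hs : ∀ s : Finset ℤ, ∑ k ∈ s, w k ^ 2 ≤ W ^ 2)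
    (g : L2) : Summable (fun k => w k * ‖cL k g‖) ∧ ∑' k, w k * ‖cL k g‖ ≤ W * ‖g‖ := by
  have h1 : ∀ s : Finset ℤ, ∑ k ∈ s, w k * ‖cL k g‖ ≤ W * ‖g‖ := fun s =>
    (Real.sum_mul_le_sqrt_mul_sqrt s _ _).trans (mul_le_mul (Real.sqrt_le_iff.2 ⟨hW, hs s⟩)
      (Real.sqrt_le_iff.2 ⟨norm_nonneg _, sum_le_hasSum s (fun _ _ => sq_nonneg _) (hasSum_sq g)⟩) (Real.sqrt_nonneg _) hW)
  have h2 := summable_of_sum_le (fun k => mul_nonneg (hw k) (norm_nonneg _)) h1
  exact ⟨h2, h2.tsum_le_of_sum_le h1⟩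

theorem fb_hasSum : HasSum (fun k : ℤ => (1 / |(k : ℝ)|) ^ 2) (Real.pi ^ 2 / 6 + Real.pi ^ 2 / 6 - (1 / |((0 : ℤ) : ℝ)|) ^ 2) :=
  HasSum.of_nat_of_neg (by simpa using hasSum_zeta_two) (by simpa using hasSum_zeta_two)

theorem sum_inv_sq (s : Finset ℤ) : ∑ k ∈ s, (1 / |(k : ℝ)|) ^ 2 ≤ 2 ^ 2 := by
  refine (sum_le_hasSum s (fun _ _ => sq_nonneg _) fb_hasSum).trans ?_
  have := Real.pi_lt_d2
  have := Real.pi_pos
  simp only [Int.cast_zero, abs_zero, div_zero]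
  nlinarith

theorem sum_inv_sq_tail {ε : ℝ} (hε : 0 < ε) :
    ∃ t : Finset ℤ, ∀ s : Finset ℤ, ∑ k ∈ s, (if k ∈ t then 0 else 1 / |(k : ℝ)|) ^ 2 ≤ ε ^ 2 := by
  obtain ⟨t, ht⟩ := summable_iff_vanishing_norm.1 fb_hasSum.summable (ε ^ 2) (by positivity)
  refine ⟨t, fun s => le_trans (le_of_eq ?_) ((le_abs_self _).trans (ht (s \ t) Finset.sdiff_disjoint).le)⟩
  rw [Finset.sdiff_eq_filter, Finset.sum_filter]
  exact Finset.sum_congr rfl fun k _ => by split_ifs <;> simp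

/-- with `σ = 1 - r > 0`: `(1 - r^k)/k ≤ min σ (1/k) ≤ 2 / (k + 1/σ)` and `1/(k + c)² ≤ 1/(k - 1 + c) - 1/(k + c)` telescopes -/
theorem sum_holder {r : ℝ} (hr : r ∈ Icc (0 : ℝ) 1) (s : Finset ℤ) :
    ∑ k ∈ s, ((if 0 < k then 1 - r ^ k.toNat else 0) / |(k : ℝ)|) ^ 2 ≤ (2 * √(1 - r)) ^ 2 := by
  rcases hr.2.eq_or_lt with rfl | h1
  · simp
  obtain ⟨c, hc⟩ : ∃ c, c = (1 - r)⁻¹ := ⟨_, rfl⟩
  have hσ : 0 < 1 - r := sub_pos.2 h1
  have hc0 : 0 < c := hc ▸ inv_pos.2 hσ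
  have hc1 : (1 - r) * c = 1 := hc ▸ mul_inv_cancel₀ hσ.ne'
  have key : ∀ j : ℕ, ((1 - r ^ (j + 1)) / (j + 1)) ^ 2 ≤ 4 / (j + c) - 4 / ((j + 1 : ℕ) + c) := by
    intro j
    have e0 : (0 : ℝ) ≤ j := Nat.cast_nonneg j
    have e1 : 0 ≤ r ^ (j + 1) := pow_nonneg hr.1 _
    have e2 : r ^ (j + 1) ≤ 1 := pow_le_one₀ hr.1 hr.2
    have e3 := one_add_mul_le_pow (a := -(1 - r)) (by linarith [hr.1]) (j + 1)
    rw [show 1 + -(1 - r) = r by ring] at e3
    push_cast at e3 ⊢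
    have e4 : (1 - r ^ (j + 1)) * c ≤ j + 1 := by nlinarith
    have e5 : (1 - r ^ (j + 1)) / (j + 1) ≤ 2 / (j + 1 + c) := by
      rw [div_le_div_iff₀ (by positivity) (by positivity)]
      nlinarith
    refine (pow_le_pow_left₀ (div_nonneg (by linarith) (by positivity)) e5 2).trans ?_
    rw [div_pow, div_sub_div _ _ (by positivity) (by positivity), div_le_div_iff₀ (by positivity) (by positivity)]
    nlinarith
  let n := s.sup Int.toNat
  have e1 : s.filter (0 < ·) ⊆ (Finset.range n).image fun j : ℕ => (j : ℤ) + 1 := by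
    intro k hk
    obtain ⟨h1, h2⟩ := Finset.mem_filter.1 hk
    have := Finset.le_sup (f := Int.toNat) h1
    exact Finset.mem_image.2 ⟨k.toNat - 1, Finset.mem_range.2 (by omega), by omega⟩
  rw [← Finset.sum_filter_of_ne (p := (0 < ·)) (fun k _ h => by by_contra hk; simp [hk] at h)]
  refine (Finset.sum_le_sum_of_subset_of_nonneg e1 fun _ _ _ => sq_nonneg _).trans ?_
  rw [Finset.sum_image fun a _ b _ h => by omega]
  refine (Finset.sum_le_sum (g := fun j : ℕ => 4 / (j + c) - 4 / ((j + 1 : ℕ) + c)) fun j _ => ?_).trans ?_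
  · rw [if_pos (by omega), show ((j : ℤ) + 1).toNat = j + 1 by omega]
    push_cast
    rw [abs_of_pos (by positivity)]
    exact_mod_cast key j
  · rw [Finset.sum_range_sub' (fun j : ℕ => 4 / (j + c)), mul_pow, Real.sq_sqrt hσ.le, Nat.cast_zero, zero_add, hc,
      div_inv_eq_mul]
    have : 0 ≤ 4 / (n + (1 - r)⁻¹) := by positivity
    linarith

/-- bounded + coefficientwise convergence gives weak convergence (`hasSum_ee h`: finite part + small tail) -/
theorem weak_of_coef {ι : Type} {l : Filter ι} {u : ι → L2} {B : ℝ} (hB : ∀ i, ‖u i‖ ≤ B)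
    (h : ∀ k, Tendsto (fun i => cL k (u i)) l (𝓝 (cL k g))) (v : L2) :
    Tendsto (fun i => ⟪v, u i⟫_ℂ) l (𝓝 ⟪v, g⟫_ℂ) := by
  refine Metric.tendsto_nhds.2 fun ε hε => ?_
  obtain ⟨t, ht⟩ := (Metric.tendsto_nhds.1 (hasSum_ee v) (ε / 2 / (|B| + ‖g‖ + 1)) (by positivity)).exists
  have e1 : ∀ w : L2, ⟪∑ k ∈ t, cL k v • ee k, w⟫_ℂ = ∑ k ∈ t, conj (cL k v) * cL k w := fun w => by
    rw [sum_inner]
    exact Finset.sum_congr rfl fun k _ => inner_smul_left _ _ _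
  have e2 : Tendsto (fun i => ⟪∑ k ∈ t, cL k v • ee k, u i⟫_ℂ) l (𝓝 ⟪∑ k ∈ t, cL k v • ee k, g⟫_ℂ) := by
    simp only [e1]
    exact tendsto_finsetSum _ fun k _ => (h k).const_mul _
  filter_upwards [Metric.tendsto_nhds.1 e2 (ε / 2) (by positivity)] with i hi
  generalize ∑ k ∈ t, cL k v • ee k = p at *
  rw [dist_eq_norm] at ht hi ⊢
  have e3 : ⟪v, u i⟫_ℂ - ⟪v, g⟫_ℂ = (⟪p, u i⟫_ℂ - ⟪p, g⟫_ℂ) - ⟪p - v, u i - g⟫_ℂ := by
    simp only [inner_sub_left, inner_sub_right]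
    ring
  have e4 : ‖u i - g‖ ≤ |B| + ‖g‖ + 1 := by linarith [norm_sub_le (u i) g, hB i, le_abs_self B]
  have e5 := (norm_inner_le_norm (𝕜 := ℂ) (p - v) (u i - g)).trans (mul_le_mul ht.le e4 (norm_nonneg _) (by positivity))
  rw [div_mul_cancel₀ _ (by positivity)] at e5
  rw [e3]
  linarith [norm_sub_le (⟪p, u i⟫_ℂ - ⟪p, g⟫_ℂ) ⟪p - v, u i - g⟫_ℂ]

/-- Parseval and `tendsto_tsum_of_dominated_convergence` -/
theorem strong_of_coef {ι : Type} {l : Filter ι} {u : ι → L2} (hd : ∀ᶠ i in l, ∀ k, ‖cL k (u i)‖ ≤ ‖cL k g'‖)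
    (hg : ∀ k, ‖cL k g‖ ≤ ‖cL k g'‖) (h : ∀ k, Tendsto (fun i => cL k (u i)) l (𝓝 (cL k g))) :
    Tendsto u l (𝓝 g) := by
  have e1 := tendsto_tsum_of_dominated_convergence (𝓕 := l) (f := fun i k => ‖cL k (u i - g)‖ ^ 2) (g := fun _ => (0 : ℝ))
    (bound := fun k => 4 * ‖cL k g'‖ ^ 2) ((hasSum_sq g').summable.mul_left 4) (fun k => by
      simpa using (tendsto_iff_norm_sub_tendsto_zero.1 (h k)).pow 2) (hd.mono fun i hi k => by
      rw [Real.norm_of_nonneg (sq_nonneg _), map_sub]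
      have := (norm_sub_le _ _).trans (add_le_add (hi k) (hg k))
      nlinarith [norm_nonneg (cL k (u i) - cL k g)])
  simp only [(hasSum_sq _).tsum_eq, tsum_zero] at e1
  rw [tendsto_iff_norm_sub_tendsto_zero]
  simpa using e1.sqrt

/-- `(Complex.reCLM.compLpL 2 hm)`, `Lp.coeFn_nonneg`, `isClosed_le` -/
theorem isClosed_re_nonneg : IsClosed {g : L2 | ∀ᵐ x ∂hm, 0 ≤ (g x).re} := by
  have : {g : L2 | ∀ᵐ x ∂hm, 0 ≤ (g x).re} = {g : L2 | 0 ≤ Complex.reCLM.compLpL 2 hm g} := by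
    ext g
    rw [mem_ofPred_eq, mem_ofPred_eq, ← Lp.coeFn_nonneg]
    refine eventually_congr ((Complex.reCLM.coeFn_compLpL g).mono fun x hx => ?_)
    rw [hx]
    rfl
  rw [this]
  exact isClosed_le continuous_const (ContinuousLinearMap.continuous _)

/-- `AddCircle.measurePreserving_mk`, `AddCircle.volume_eq_smul_haarAddCircle` -/
theorem mp_mk : MeasurePreserving (fun θ : ℝ => (θ : TT)) mu hm := by
  have h := AddCircle.measurePreserving_mk (2 * Real.pi) 0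
  refine ⟨h.measurable, ?_⟩
  rw [zero_add] at h
  rw [mu, Measure.map_smul, h.map_eq, AddCircle.volume_eq_smul_haarAddCircle, smul_smul,
    ← ENNReal.ofReal_mul (by positivity), inv_mul_cancel₀ Real.two_pi_pos.ne', ENNReal.ofReal_one, one_smul]

def JJ : L2 →ₗᵢ[ℂ] Lp ℂ 2 mu := Lp.compMeasurePreservingₗᵢ ℂ (fun θ : ℝ => (θ : TT)) mp_mk

theorem coe_JJ (g : L2) : JJ g =ᵐ[mu] fun θ => g (θ : TT) := by
  exact Lp.coeFn_compMeasurePreserving g mp_mk

theorem ae_mu {p : TT → Prop} (h : ∀ᵐ x ∂hm, p x) : ∀ᵐ θ : ℝ ∂mu, p θ := by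
  exact mp_mk.quasiMeasurePreserving.ae h

theorem integral_mu {F : TT → ℂ} (hF : AEStronglyMeasurable F hm) : ∫ θ : ℝ, F θ ∂mu = ∫ x, F x ∂hm := by
  rw [← mp_mk.map_eq] at hF ⊢
  exact (integral_map mp_mk.measurable.aemeasurable hF).symm

end Crest.Agent.R269.C1
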