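import Crest.Agent.R269.C.C1.F

/-! Row 269, block C1 (owner helper84): the algebra `H`.  Statements frozen. -/

set_option autoImplicit false
set_option linter.unusedSectionVars false
set_option linter.unusedVariables false

noncomputable section

namespace Crest.Agent.R269.C1

open Set Metric Filter Topology MeasureTheory
open scoped InnerProductSpace ComplexConjugate

/-- `g` is the derivative of `f` -/
def Rel (f : CC) (g : L2) : Prop := ∀ k : ℤ, cL k g = Complex.I * k * cL k (toL f)

variable {f f' : CC} {g g' : L2}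

theorem Rel.unique (h : Rel f g) (h' : Rel f g') : g = g' := L2_ext fun k => (h k).trans (h' k).symm

theorem Rel.add (h : Rel f g) (h' : Rel f' g') : Rel (f + f') (g + g') := fun k => by
  simp only [map_add, h k, h' k, mul_add]

theorem Rel.smul (h : Rel f g) (c : ℂ) : Rel (c • f) (c • g) := fun k => by
  simp only [map_smul, h k, smul_eq_mul]; ring

theorem rel_fourier (k : ℤ) : Rel (fourier k) ((Complex.I * k) • ee k) := by
  intro j
  change cL j _ = _ * cL j (ee k)
  rw [map_smul, cL_ee, smul_eq_mul]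
  split_ifs with h
  · rw [h]
  · simp

/-- `cs` with `w k = 1 / |k|`, `sum_inv_sq` -/
theorem Rel.summable (h : Rel f g) : Summable fun k => ‖cL k (toL f)‖ := by
  have h1 := (cs (w := fun k : ℤ => 1 / |(k : ℝ)|) (fun k => by positivity) zero_le_two sum_inv_sq g).1
  refine (h1.add (summable_of_ne_finset_zero (s := {0})
    (f := fun k : ℤ => if k = 0 then ‖cL 0 (toL f)‖ else 0) fun k hk => if_neg (by simpa using hk))).congr fun k => ?_
  by_cases hk : k = 0
  · simp [hk]
  · have : |(k : ℝ)| ≠ 0 := by simpa using hk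
    rw [if_neg hk, h k, norm_mul, norm_mul, Complex.norm_I, Complex.norm_intCast]
    field_simp
    ring

/-- both sides are sums over `j` (`hasSum_fourier` for `f'`, `hasSum_ee` for `g'`, `HasSum.mapL`); termwise
`cL_mulL_fourier`, `mulL_toL`, `mul_comm`: `i j c(k-j) + i (k-j) c(k-j) = i k c(k-j)` -/
theorem Rel.mul (h : Rel f g) (h' : Rel f' g') : Rel (f * f') (mulL f g' + mulL f' g) := by
  intro k
  have h1 := ((hasSum_fourier h'.summable).mapL (mulL.flip g)).mapL (cL k)
  have h2 := ((hasSum_ee g').mapL (mulL f)).mapL (cL k)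
  have h3 := (((hasSum_fourier h'.summable).mapL (mulL.flip (toL f))).mapL (cL k)).mul_left (Complex.I * k)
  have e : ∀ j, mulL f (ee j) = mulL (fourier j) (toL f) := fun j => by rw [ee, mulL_toL, mulL_toL, mul_comm f]
  simp only [ContinuousLinearMap.flip_apply, map_smul, e, cL_mulL_fourier, smul_eq_mul] at h1 h2 h3
  rw [map_add, mul_comm f, ← mulL_toL]
  refine (h2.add h1).unique ?_
  have e2 : (fun j => cL j g' * cL (k - j) (toL f) + cL j (toL f') * cL (k - j) g) =
      fun j => Complex.I * k * (cL j (toL f') * cL (k - j) (toL f)) := by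
    funext j
    rw [h (k - j), h' j]
    push_cast
    ring
  rw [e2]
  exact h3

theorem Rel.star (h : Rel f g) : Rel (star f) (star g) := by
  intro k
  rw [toL_star, cL_star, cL_star, h (-k)]
  simp

theorem rel_const (c : ℂ) : Rel (algebraMap ℂ CC c) 0 := by
  have h := (rel_fourier 0).smul c
  have e : algebraMap ℂ CC c = c • fourier 0 := by ext x; simp
  rw [e]
  simpa using h

def SH : StarSubalgebra ℂ CC where
  carrier := {f | ∃ g, Rel f g}
  mul_mem' := fun ⟨_, h⟩ ⟨_, h'⟩ => ⟨_, h.mul h'⟩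
  add_mem' := fun ⟨_, h⟩ ⟨_, h'⟩ => ⟨_, h.add h'⟩
  algebraMap_mem' c := ⟨_, rel_const c⟩
  star_mem' := fun ⟨_, h⟩ => ⟨_, h.star⟩

def H : Type := SH

instance : CommRing H := inferInstanceAs (CommRing SH)
instance : Algebra ℂ H := inferInstanceAs (Algebra ℂ SH)
instance : StarRing H := inferInstanceAs (StarRing SH)

def fn : H →ₐ[ℂ] CC := SH.toSubalgebra.val

theorem fn_inj : Function.Injective fn := Subtype.val_injective

theorem fn_star (x : H) : fn (star x) = star (fn x) := rfl

def mk (f : CC) (g : L2) (h : Rel f g) : H := (⟨f, g, h⟩ : SH)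

theorem fn_mk (h : Rel f g) : fn (mk f g h) = f := rfl

def d0 (x : H) : L2 := (show ∃ g, Rel (fn x) g from x.2).choose

theorem rel_d0 (x : H) : Rel (fn x) (d0 x) := (show ∃ g, Rel (fn x) g from x.2).choose_spec

def dl : H →ₗ[ℂ] L2 where
  toFun := d0
  map_add' x y := (rel_d0 _).unique (by rw [map_add]; exact (rel_d0 x).add (rel_d0 y))
  map_smul' c x := (rel_d0 _).unique (by rw [map_smul]; exact (rel_d0 x).smul c)

theorem dl_mul (x y : H) : dl (x * y) = mulL (fn x) (dl y) + mulL (fn y) (dl x) :=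
  (rel_d0 _).unique (by rw [map_mul]; exact (rel_d0 x).mul (rel_d0 y))

def nrm : RingNorm H where
  toFun x := ‖fn x‖ + ‖dl x‖
  map_zero' := by simp
  add_le' x y := by
    rw [map_add, map_add]; linarith [norm_add_le (fn x) (fn y), norm_add_le (dl x) (dl y)]
  neg' x := by simp
  mul_le' x y := by
    rw [map_mul, dl_mul]
    nlinarith [norm_mul_le (fn x) (fn y), norm_add_le (mulL (fn x) (dl y)) (mulL (fn y) (dl x)),
      norm_mulL (fn x) (dl y), norm_mulL (fn y) (dl x), mul_nonneg (norm_nonneg (dl x)) (norm_nonneg (dl y))]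
  eq_zero_of_map_eq_zero' x h := fn_inj (by
    rw [map_zero, ← norm_eq_zero]; linarith [norm_nonneg (fn x), norm_nonneg (dl x)])

instance : NormedCommRing H := { nrm.toNormedRing with mul_comm := mul_comm }

theorem norm_def0 (x : H) : ‖x‖ = ‖fn x‖ + ‖dl x‖ := rfl

instance : NormedAlgebra ℂ H where
  norm_smul_le c x := by rw [norm_def0, norm_def0, map_smul, map_smul, norm_smul, norm_smul, mul_add]

def fnL : H →L[ℂ] CC := fn.toLinearMap.mkContinuous 1 fun x => by
  rw [one_mul, norm_def0]; exact le_add_of_nonneg_right (norm_nonneg _)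

/-- the derivative -/
def dd : H →L[ℂ] L2 := dl.mkContinuous 1 fun x => by
  rw [one_mul, norm_def0]; exact le_add_of_nonneg_left (norm_nonneg _)

theorem fnL_apply (x : H) : fnL x = fn x := rfl

theorem norm_def (x : H) : ‖x‖ = ‖fn x‖ + ‖dd x‖ := rfl

theorem rel_dd (x : H) : Rel (fn x) (dd x) := rel_d0 x

theorem dd_mk (h : Rel f g) : dd (mk f g h) = g := (rel_dd _).unique h

theorem dd_mul (x y : H) : dd (x * y) = mulL (fn x) (dd y) + mulL (fn y) (dd x) := dl_mul x y

theorem dd_star (x : H) : dd (star x) = star (dd x) := (rel_dd _).unique (rel_dd x).star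

theorem norm_star_H (x : H) : ‖star x‖ = ‖x‖ := by rw [norm_def, norm_def, dd_star, fn_star, norm_star, norm_star_L2]

theorem tendsto_H {ι : Type} {l : Filter ι} {u : ι → H} {x : H} (h1 : Tendsto (fun i => fn (u i)) l (𝓝 (fn x)))
    (h2 : Tendsto (fun i => dd (u i)) l (𝓝 (dd x))) : Tendsto u l (𝓝 x) := by
  rw [tendsto_iff_norm_sub_tendsto_zero] at h1 h2 ⊢
  simpa only [norm_def, map_sub, add_zero] using h1.add h2

/-- `Metric.complete_of_cauchySeq_tendsto`; `Rel` is closed -/
instance : CompleteSpace H := by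
  refine Metric.complete_of_cauchySeq_tendsto fun u hu => ?_
  obtain ⟨f, hf⟩ := cauchySeq_tendsto_of_complete (fnL.uniformContinuous.comp_cauchySeq hu)
  obtain ⟨g, hg⟩ := cauchySeq_tendsto_of_complete (dd.uniformContinuous.comp_cauchySeq hu)
  have h : Rel f g := fun k =>
    tendsto_nhds_unique (((cL k).continuous.tendsto g).comp hg)
      (((((cL k).continuous.comp toL.continuous).tendsto f).comp hf).const_mul (Complex.I * k) |>.congr
        fun n => (rel_dd (u n) k).symm)
  exact ⟨mk f g h, tendsto_H hf (by rw [dd_mk]; exact hg)⟩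

/-- Fourier coefficients -/
def cf (k : ℤ) : H →L[ℂ] ℂ := (cL k).comp (toL.comp fnL)

theorem cf_apply (k : ℤ) (x : H) : cf k x = cL k (toL (fn x)) := rfl

theorem cL_dd (k : ℤ) (x : H) : cL k (dd x) = Complex.I * k * cf k x := rel_dd x k

/-- the monomials -/
def E (k : ℤ) : H := mk _ _ (rel_fourier k)

theorem fn_E (k : ℤ) : fn (E k) = fourier k := rfl

theorem dd_E (k : ℤ) : dd (E k) = (Complex.I * k) • ee k := dd_mk _

variable {x y : H}

theorem E_mul (j k : ℤ) : E j * E k = E (j + k) := by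
  exact fn_inj (by rw [map_mul, fn_E, fn_E, fn_E, fourier_mul])

theorem E_zero : E 0 = 1 := by
  refine fn_inj ?_
  rw [map_one, fn_E]
  ext x; simp

theorem cf_E (k j : ℤ) : cf k (E j) = if k = j then 1 else 0 := by
  exact cL_ee k j

theorem norm_E (k : ℤ) : ‖E k‖ ≤ 1 + |(k : ℝ)| := by
  have h1 : ‖ee k‖ ≤ 1 := (norm_toL _).trans_eq (fourier_norm k)
  rw [norm_def, fn_E, fourier_norm, dd_E, norm_smul, norm_mul, Complex.norm_I, Complex.norm_intCast, one_mul]
  linarith [mul_le_of_le_one_right (abs_nonneg (k : ℝ)) h1]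

theorem cf_E_mul (k j : ℤ) (x : H) : cf k (E j * x) = cf (k - j) x := by
  rw [cf_apply, map_mul, ← mulL_toL, fn_E, cL_mulL_fourier, cf_apply]

theorem cf_star (k : ℤ) (x : H) : cf k (star x) = conj (cf (-k) x) := by
  rw [cf_apply, fn_star, toL_star, cL_star, cf_apply]

theorem norm_cf (k : ℤ) (x : H) : ‖cf k x‖ ≤ ‖fn x‖ := by
  exact (norm_cL _ _).trans (norm_toL _)

theorem summable_cf (x : H) : Summable fun k => ‖cf k x‖ := (rel_dd x).summable

theorem hasSum_fn (x : H) : HasSum (fun k => cf k x • (fourier k : CC)) (fn x) := hasSum_fourier (summable_cf x)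

theorem hasSum_val (x : H) (t : TT) : HasSum (fun k => cf k x * fourier k t) (fn x t) := by
  exact (hasSum_fn x).mapL (ContinuousMap.evalCLM ℂ t)

/-- `tendsto_H` -/
theorem hasSum_E (x : H) : HasSum (fun k => cf k x • E k) x := by
  refine tendsto_H ?_ ?_
  · simp only [map_sum, map_smul, fn_E]
    exact hasSum_fn x
  · have h := hasSum_ee (dd x)
    simp only [cL_dd, mul_comm _ (cf _ x)] at h
    simp only [map_sum, map_smul, dd_E, smul_smul]
    exact h

theorem H_ext (h : ∀ k, cf k x = cf k y) : x = y := by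
  exact (hasSum_E x).unique (by simpa only [h] using hasSum_E y)

/-- `cs` with the weights `w k / |k|` -/
theorem cs_H {w : ℤ → ℝ} {W : ℝ} (hw : ∀ k, 0 ≤ w k) (h0 : w 0 = 0) (hW : 0 ≤ W)
    (hs : ∀ s : Finset ℤ, ∑ k ∈ s, (w k / |(k : ℝ)|) ^ 2 ≤ W ^ 2) (x : H) :
    Summable (fun k => w k * ‖cf k x‖) ∧ ∑' k, w k * ‖cf k x‖ ≤ W * ‖dd x‖ := by
  have h := cs (w := fun k => w k / |(k : ℝ)|) (fun k => div_nonneg (hw k) (abs_nonneg _)) hW hs (dd x)
  have e : ∀ k : ℤ, w k / |(k : ℝ)| * ‖cL k (dd x)‖ = w k * ‖cf k x‖ := fun k => by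
    by_cases hk : k = 0
    · simp [hk, h0]
    · have : |(k : ℝ)| ≠ 0 := by simpa using hk
      rw [cL_dd, norm_mul, norm_mul, Complex.norm_I, Complex.norm_intCast]
      field_simp
  simpa only [e] using h

theorem norm_sub_cf_zero (x : H) (t : TT) : ‖fn x t - cf 0 x‖ ≤ 2 * ‖dd x‖ := by
  obtain ⟨h1, h2⟩ := cs_H (w := fun k => if k = 0 then 0 else 1) (fun k => by split_ifs <;> norm_num) (if_pos rfl)
    zero_le_two (fun s => le_trans (Finset.sum_le_sum fun k _ => by split_ifs with h <;> simp [h]) (sum_inv_sq s)) x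
  have h3 := hasSum_ite_sub_hasSum (hasSum_val x t) 0
  rw [fourier_zero, mul_one] at h3
  rw [← h3.tsum_eq]
  refine (tsum_of_norm_bounded h1.hasSum fun k => ?_).trans h2
  split_ifs
  · simp
  · rw [norm_mul, one_mul]
    exact mul_le_of_le_one_right (norm_nonneg _) (((fourier k).norm_coe_le_norm t).trans_eq (fourier_norm k))

theorem norm_le_cf (x : H) : ‖x‖ ≤ ‖cf 0 x‖ + 3 * ‖dd x‖ := by
  have h : ‖fn x‖ ≤ ‖cf 0 x‖ + 2 * ‖dd x‖ := (ContinuousMap.norm_le _ (by positivity)).2 fun t => by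
    linarith [norm_sub_cf_zero x t, norm_le_insert' (fn x t) (cf 0 x)]
  rw [norm_def]; linarith

/-- `g` from `exists_L2`, `f = ∑' a k • fourier k` (absolutely summable by `cs`), `cL_ee` -/
theorem exists_H {a : ℤ → ℂ} (ha : Summable fun k : ℤ => ‖Complex.I * k * a k‖ ^ 2) : ∃ x : H, ∀ k, cf k x = a k := by
  obtain ⟨g, hg⟩ := exists_L2 ha
  have h1 := (cs (w := fun k : ℤ => 1 / |(k : ℝ)|) (fun k => by positivity) zero_le_two sum_inv_sq g).1
  have h2 : Summable fun k => ‖a k‖ := by
    refine (h1.add (summable_of_ne_finset_zero (s := {0})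
      (f := fun k : ℤ => if k = 0 then ‖a 0‖ else 0) fun k hk => if_neg (by simpa using hk))).congr fun k => ?_
    by_cases hk : k = 0
    · simp [hk]
    · have : |(k : ℝ)| ≠ 0 := by simpa using hk
      rw [if_neg hk, hg k, norm_mul, norm_mul, Complex.norm_I, Complex.norm_intCast]
      field_simp
      ring
  have h3 : Summable fun k => a k • (fourier k : CC) :=
    .of_norm (by simpa only [norm_smul, fourier_norm, mul_one] using h2)
  have h4 : ∀ k, cL k (toL (∑' j, a j • (fourier j : CC))) = a k := fun k => by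
    have h5 := (h3.hasSum.mapL toL).mapL (cL k)
    refine h5.unique ?_
    convert hasSum_ite_eq k (a k) using 2 with j
    rw [map_smul, map_smul, smul_eq_mul]
    change a j * cL k (ee j) = _
    rw [cL_ee]
    by_cases hj : j = k
    · simp [hj]
    · simp [hj, Ne.symm hj]
  exact ⟨mk (∑' j, a j • (fourier j : CC)) g fun k => by rw [hg, h4], h4⟩

/-- Fourier multipliers (`exists_H`, `H_ext`, `norm_le_cf`, Parseval) -/
theorem exists_mult {m : ℤ → ℂ} (hm : ∀ k, ‖m k‖ ≤ 1) :
    ∃ T : H →L[ℂ] H, (∀ x k, cf k (T x) = m k * cf k x) ∧ ∀ x, ‖T x‖ ≤ 3 * ‖x‖ := by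
  have hle : ∀ (x : H) (k : ℤ), ‖Complex.I * k * (m k * cf k x)‖ ^ 2 ≤ ‖cL k (dd x)‖ ^ 2 := fun x k => by
    refine pow_le_pow_left₀ (norm_nonneg _) ?_ 2
    rw [cL_dd, mul_left_comm, norm_mul]
    exact mul_le_of_le_one_left (norm_nonneg _) (hm k)
  choose T hT using fun x : H => exists_H (a := fun k => m k * cf k x)
    ((hasSum_sq (dd x)).summable.of_nonneg_of_le (fun _ => by positivity) (hle x))
  have hn : ∀ x, ‖T x‖ ≤ 3 * ‖x‖ := fun x => by
    have h1 : ‖dd (T x)‖ ≤ ‖dd x‖ := by
      refine (sq_le_sq₀ (norm_nonneg _) (norm_nonneg _)).1 ?_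
      exact hasSum_le (fun k => by rw [cL_dd, hT]; exact hle x k) (hasSum_sq _) (hasSum_sq _)
    have h2 : ‖cf 0 (T x)‖ ≤ ‖fn x‖ := by
      rw [hT, norm_mul]
      exact (mul_le_of_le_one_left (norm_nonneg _) (hm 0)).trans (norm_cf 0 x)
    have h3 := norm_le_cf (T x)
    rw [norm_def x]
    linarith [norm_nonneg (fn x)]
  let L : H →ₗ[ℂ] H :=
    { toFun := T
      map_add' := fun x y => H_ext fun k => by simp only [hT, map_add, mul_add]
      map_smul' := fun c x => H_ext fun k => by
        simp only [hT, map_smul, smul_eq_mul, RingHom.id_apply]; ring }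
  exact ⟨L.mkContinuous 3 hn, hT, hn⟩

end Crest.Agent.R269.C1
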