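import Crest.Agent.R269.C.C1.A

/-! Row 269, block C1 (owner helper84): the analytic properties.  Statements frozen. -/

set_option autoImplicit false
set_option linter.unusedSectionVars false
set_option linter.unusedVariables false

noncomputable section

namespace Crest.Agent.R269.C1

open Set Metric Filter Topology MeasureTheory
open scoped InnerProductSpace ComplexConjugate

/-- `hasSum_ev`, `ev_val`, `cs_H`, `sum_holder` -/
theorem holder (a : SA) (θ : ℝ) {r : ℝ} (hr : r ∈ Icc (0 : ℝ) 1) :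
    ‖ev (circleMap 0 r θ) a - val θ a‖ ≤ 2 * √(1 - r) * ‖dd a‖ := by
  have hw : ∀ k : ℤ, (0 : ℝ) ≤ if 0 < k then 1 - r ^ k.toNat else 0 := fun k => by
    split_ifs
    · exact sub_nonneg.2 (pow_le_one₀ hr.1 hr.2)
    · rfl
  obtain ⟨h1, h2⟩ := cs_H hw (by simp) (by positivity) (sum_holder hr) (a : H)
  have h3 := (hasSum_ev (z := circleMap 0 r θ) (by simpa [abs_of_nonneg hr.1] using hr.2) a).sub
    (hasSum_ev (z := circleMap 0 1 θ) (by simp) a)
  rw [ev_val] at h3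
  have h4 := h1.comp_injective (Nat.cast_injective (R := ℤ))
  refine (h3.norm_le_of_bounded h4.hasSum fun n => ?_).trans (le_trans ?_ h2)
  · have e : circleMap 0 r θ = r * circleMap 0 1 θ := by simp [circleMap]
    rw [e, ← mul_sub, mul_pow, ← sub_one_mul, norm_mul, norm_mul, norm_pow, mul_comm]
    have : ‖(r : ℂ) ^ n - 1‖ = 1 - r ^ n := by
      rw [← Complex.ofReal_pow, ← Complex.ofReal_one, ← Complex.ofReal_sub, Complex.norm_real, Real.norm_eq_abs, abs_sub_comm,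
        abs_of_nonneg (sub_nonneg.2 (pow_le_one₀ hr.1 hr.2))]
    rw [this]
    rcases n with _ | n <;> simp
  · exact tsum_comp_le_tsum_of_inj h1 (fun k => mul_nonneg (hw k) (norm_nonneg _)) Nat.cast_injective

/-- `f` is holomorphic on `closedBall 0 R`, `R > 1` (`IsCompact.exists_cthickening_subset_open`, `isOpen_analyticAt`),
`DifferentiableOn.hasFPowerSeriesOnBall`; `a = ∑' p_n • zz ^ n` (`norm_zz_pow`), apply `evL z` -/
theorem of_analytic (f : ℂ → ℂ) (hf : AnalyticOnNhd ℂ f (closedBall 0 1)) :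
    ∃ a : SA, ∀ z ∈ closedBall (0 : ℂ) 1, ev z a = f z := by
  obtain ⟨δ, hδ, hs⟩ := (isCompact_closedBall (0 : ℂ) 1).exists_cthickening_subset_open (isOpen_analyticAt ℂ f) hf
  rw [cthickening_closedBall hδ.le zero_le_one] at hs
  lift δ to NNReal using hδ.le
  have hδ' : 0 < δ := by exact_mod_cast hδ
  have hp := DifferentiableOn.hasFPowerSeriesOnBall (R := δ + 1) (c := 0) (f := f)
    (fun z hz => (show AnalyticAt ℂ f z from hs hz).differentiableAt.differentiableWithinAt) (by positivity)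
  set p := cauchyPowerSeries f 0 (δ + 1 : NNReal)
  have h1 := p.summable_norm_mul_pow (r := δ / 2 + 1)
    (lt_of_lt_of_le (by exact_mod_cast add_lt_add_left (half_lt_self hδ') 1) hp.r_le)
  have h2 : Summable fun n : ℕ => p.coeff n • zz ^ n := by
    refine Summable.of_norm_bounded (h1.mul_left (1 + 2 / (δ : ℝ))) fun n => ?_
    rw [norm_smul, FormalMultilinearSeries.norm_apply_eq_norm_coef, mul_left_comm]
    refine mul_le_mul_of_nonneg_left ((norm_zz_pow n).trans ?_) (norm_nonneg _)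
    have h3 := one_add_mul_le_pow (a := (δ : ℝ) / 2) (by linarith) n
    have h4 : (1 + 2 / (δ : ℝ)) * (1 + n * (δ / 2)) = 1 + n + (n * (δ / 2) + 2 / δ) := by field_simp; ring
    have h5 : (0 : ℝ) ≤ n * (δ / 2) + 2 / δ := by positivity
    push_cast
    rw [add_comm (δ / 2 : ℝ)]
    exact le_trans (by linarith) (mul_le_mul_of_nonneg_left h3 (by positivity))
  refine ⟨_, fun z hz => (h2.hasSum.mapL (evL z)).unique ?_⟩
  have hz1 : ‖z‖ ≤ 1 := by simpa using hz
  have h3 := hp.hasSum (y := z) (by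
    rw [Metric.eball_coe, mem_ball_zero_iff]
    push_cast
    linarith)
  simpa [evL_apply, ev_zz hz1, mul_comm] using h3

theorem pa_norm (z : ℂ) (x : SA) : ‖dilA z x‖ ≤ 3 * ‖x‖ := norm_dilH z x

/-- uniform limit (`norm_dilH`, `hasSum_zz`) of the continuous maps `r ↦ ∑_{n ∈ s} c_n • (r • zz)^n` -/
theorem cont_dil (a : SA) : ContinuousOn (fun r : ℝ => dilA r a) (Icc 0 1) := by
  refine TendstoUniformlyOn.continuousOn (F := fun (s : Finset ℕ) (r : ℝ) => dilA r (∑ n ∈ s, cf n (a : H) • zz ^ n))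
    (p := atTop) ?_ (Frequently.of_forall fun s => ?_)
  · refine Metric.tendstoUniformlyOn_iff.2 fun ε hε => ?_
    filter_upwards [Metric.tendsto_nhds.1 (hasSum_zz a) (ε / 3) (by positivity)] with s hs r _
    rw [dist_comm, dist_eq_norm] at hs
    rw [dist_eq_norm, ← map_sub]
    linarith [pa_norm r (a - ∑ n ∈ s, cf n (a : H) • zz ^ n)]
  · refine ContinuousOn.congr (f := fun r : ℝ => ∑ n ∈ s, cf n (a : H) • ((r : ℂ) • zz) ^ n) (by fun_prop) fun r hr => ?_
    simp only [map_sum, map_smul]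
    refine Finset.sum_congr rfl fun n _ => ?_
    rw [← rt_eq (z := r) (by simpa [abs_of_nonneg hr.1] using hr.2), ← dilL_pow, rt_eq (by simpa [abs_of_nonneg hr.1] using hr.2)]
    rfl

/-- `‖w‖^n ≤ C (1 + n)` for all `n` forces `‖w‖ ≤ 1` -/
theorem norm_le_one_of_pow {w : ℂ} {C : ℝ} (h : ∀ n : ℕ, ‖w ^ n‖ ≤ C * (1 + n)) : ‖w‖ ≤ 1 := by
  by_contra hw
  rw [not_le] at hw
  have h1 := ((tendsto_pow_const_div_const_pow_of_one_lt 0 hw).add
    (tendsto_pow_const_div_const_pow_of_one_lt 1 hw)).const_mul C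
  rw [add_zero, mul_zero] at h1
  have h2 : (1 : ℝ) ≤ 0 := ge_of_tendsto' h1 fun n => by
    have hp : 0 < ‖w‖ ^ n := by positivity
    rw [← add_div, ← mul_div_assoc, le_div_iff₀ hp, one_mul, pow_zero, pow_one, ← norm_pow]
    exact h n
  linarith

/-- `WeakDual.CharacterSpace.toCLM`, `A_ext` -/
theorem char_A (χ : WeakDual.characterSpace ℂ SA) : ∃ z ∈ closedBall (0 : ℂ) 1, ∀ a, χ a = ev z a := by
  have hz : ‖χ zz‖ ≤ 1 := norm_le_one_of_pow (C := ‖WeakDual.CharacterSpace.toCLM χ‖) fun n => by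
    rw [← map_pow]
    exact ((WeakDual.CharacterSpace.toCLM χ).le_opNorm _).trans
      (mul_le_mul_of_nonneg_left (norm_zz_pow n) (norm_nonneg _))
  refine ⟨χ zz, mem_closedBall_zero_iff.2 hz, fun a => ?_⟩
  have h : WeakDual.CharacterSpace.toCLM χ = evL (χ zz) := A_ext fun n => by
    rw [evL_apply, map_pow (ev _), ev_zz hz]
    exact map_pow χ _ _
  exact DFunLike.congr_fun h a

theorem pb_E_pow (k : ℤ) (n : ℕ) : E k ^ n = E (n * k) := by
  induction n with
  | zero => simp [E_zero]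
  | succ n ih => rw [pow_succ, ih, E_mul]; congr 1; push_cast; ring

theorem pb_norm (χ : WeakDual.characterSpace ℂ H) {k : ℤ} (hk : |(k : ℝ)| = 1) : ‖χ (E k)‖ ≤ 1 :=
  norm_le_one_of_pow (C := ‖WeakDual.CharacterSpace.toCLM χ‖) fun n => by
    rw [← map_pow, pb_E_pow]
    refine ((WeakDual.CharacterSpace.toCLM χ).le_opNorm _).trans
      (mul_le_mul_of_nonneg_left ((norm_E _).trans_eq ?_) (norm_nonneg _))
    push_cast
    rw [abs_mul, hk, mul_one, Nat.abs_cast]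

/-- `w = χ (E 1)`, `w * χ (E (-1)) = 1`, both of norm `≤ 1`; `w = exp (θ i)`; `χ (E k) = w ^ k`; `hasSum_E`, `hasSum_val` -/
theorem char_H (χ : WeakDual.characterSpace ℂ H) : ∃ θ : ℝ, ∀ x, χ x = val θ x := by
  have h1 : χ (E 1) * χ (E (-1)) = 1 := by rw [← map_mul, E_mul, add_neg_cancel, E_zero, map_one]
  have h2 := pb_norm χ (k := 1) (by simp)
  have h3 := pb_norm χ (k := -1) (by simp)
  have h4 : ‖χ (E 1)‖ = 1 := by
    have := congrArg norm h1
    rw [norm_mul, norm_one] at this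
    nlinarith [norm_nonneg (χ (E 1)), norm_nonneg (χ (E (-1)))]
  have h5 : circleMap 0 1 (Complex.arg (χ (E 1))) = χ (E 1) := by
    have := Complex.norm_mul_exp_arg_mul_I (χ (E 1))
    rw [h4] at this
    simpa [circleMap] using this
  have h6 : ∀ k : ℤ, χ (E k) = χ (E 1) ^ k := fun k => by
    obtain ⟨n, rfl | rfl⟩ := k.eq_nat_or_neg
    · rw [zpow_natCast, ← map_pow, pb_E_pow, mul_one]
    · rw [zpow_neg, zpow_natCast, ← inv_pow, ← eq_inv_of_mul_eq_one_right h1, ← map_pow, pb_E_pow,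
        mul_neg, mul_one]
  refine ⟨Complex.arg (χ (E 1)), fun x => ?_⟩
  have h7 := (hasSum_E x).mapL (WeakDual.CharacterSpace.toCLM χ)
  have h8 := hasSum_val x (Complex.arg (χ (E 1)) : ℝ)
  have e : ∀ k : ℤ, WeakDual.CharacterSpace.toCLM χ (cf k x • E k) =
      cf k x * fourier k ((Complex.arg (χ (E 1)) : ℝ) : TT) := fun k => by
    rw [map_smul, smul_eq_mul, fourier_coe, h5, ← h6]
    rfl
  simp only [e] at h7
  exact h7.unique h8

theorem unitH (x : H) (h : ∀ θ, val θ x ≠ 0) : IsUnit x := by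
  by_contra hx
  obtain ⟨χ, hχ⟩ := WeakDual.CharacterSpace.exists_apply_eq_zero hx
  obtain ⟨θ, hθ⟩ := char_H χ
  exact h θ ((hθ x).symm.trans hχ)

/-- `Ideal.exists_le_maximal`, `Ideal.toCharacterSpace_apply_eq_zero_of_mem`, `Ideal.mem_span_range_iff_exists_fun` -/
theorem bezout {κ : Type} [Fintype κ] (f : κ → SA) (h : ∀ z ∈ closedBall (0 : ℂ) 1, ∃ i, ev z (f i) ≠ 0) :
    ∃ a : κ → SA, ∑ i, a i * f i = 1 := by
  rw [← Ideal.mem_span_range_iff_exists_fun, ← Ideal.eq_top_iff_one]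
  by_contra hI
  obtain ⟨M, hM, hle⟩ := Ideal.exists_le_maximal _ hI
  obtain ⟨z, hz, hχ⟩ := char_A M.toCharacterSpace
  obtain ⟨i, hi⟩ := h z hz
  exact hi ((hχ _).symm.trans
    (M.toCharacterSpace_apply_eq_zero_of_mem (hle (Ideal.subset_span ⟨i, rfl⟩))))

theorem h8_norm_ev_le {z : ℂ} (hz : ‖z‖ ≤ 1) (x : SA) : ‖ev z x‖ ≤ ∑' k : ℤ, ‖cf k (x : H)‖ := by
  have h1 : ‖ev z x‖ ≤ ∑' n : ℕ, ‖cf n (x : H)‖ := by
    refine (hasSum_ev hz x).norm_le_of_bounded (summable_cf_nat (x : H)).hasSum fun n => ?_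
    rw [norm_mul, norm_pow]
    exact mul_le_of_le_one_right (norm_nonneg _) (pow_le_one₀ (norm_nonneg _) hz)
  refine h1.trans ?_
  exact tsum_comp_le_tsum_of_inj (summable_cf (x : H)) (fun _ => norm_nonneg _)
    (Nat.cast_injective (R := ℤ))

theorem h8_norm_dd_le (x : H) : ‖dd x‖ ≤ ‖x‖ := by
  rw [norm_def]; exact le_add_of_nonneg_left (norm_nonneg _)

theorem h8_norm_cf_le (k : ℤ) (x : H) : ‖cf k x‖ ≤ ‖x‖ := by
  refine (norm_cf k x).trans ?_
  rw [norm_def]; exact le_add_of_nonneg_right (norm_nonneg _)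

theorem h8_tail {ε : ℝ} (hε : 0 < ε) : ∃ t : Finset ℤ, ∀ x : H,
    ∑' k : ℤ, ‖cf k x‖ ≤ ∑ k ∈ t, ‖cf k x‖ + ε * ‖dd x‖ := by
  classical
  obtain ⟨t, ht⟩ := sum_inv_sq_tail hε
  refine ⟨insert 0 t, fun x => ?_⟩
  have hw : ∀ k : ℤ, (0 : ℝ) ≤ if k ∈ insert (0 : ℤ) t then 0 else 1 := fun k => by
    split_ifs <;> norm_num
  have hs : ∀ s : Finset ℤ,
      ∑ k ∈ s, ((if k ∈ insert (0 : ℤ) t then (0 : ℝ) else 1) / |(k : ℝ)|) ^ 2 ≤ ε ^ 2 := fun s => by
    refine le_trans (Finset.sum_le_sum fun k _ => ?_) (ht s)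
    by_cases h1 : k ∈ insert (0 : ℤ) t
    · rw [if_pos h1, zero_div, zero_pow two_ne_zero]; exact sq_nonneg _
    · rw [if_neg h1, if_neg fun h => h1 (Finset.mem_insert_of_mem h)]
  obtain ⟨hsum, hle⟩ := cs_H (w := fun k => if k ∈ insert (0 : ℤ) t then 0 else 1) hw
    (by simp) hε.le hs x
  have h1 : HasSum (fun k : ℤ => if k ∈ insert (0 : ℤ) t then ‖cf k x‖ else 0)
      (∑ k ∈ insert (0 : ℤ) t, ‖cf k x‖) := by
    have := hasSum_sum_of_ne_finset_zero (L := SummationFilter.unconditional ℤ)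
      (f := fun k : ℤ => if k ∈ insert (0 : ℤ) t then ‖cf k x‖ else 0)
      (s := insert (0 : ℤ) t) (fun k hk => if_neg hk)
    rwa [Finset.sum_congr rfl fun k hk => if_pos hk] at this
  have h2 := h1.add hsum.hasSum
  have h3 : (fun k : ℤ => (if k ∈ insert (0 : ℤ) t then ‖cf k x‖ else 0) +
      (if k ∈ insert (0 : ℤ) t then (0 : ℝ) else 1) * ‖cf k x‖) = fun k => ‖cf k x‖ := by
    funext k; split_ifs <;> simp
  rw [h3] at h2
  rw [h2.tsum_eq]
  linarith

/-- a bounded family with converging coefficients converges uniformly on the closed disc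
(`sum_inv_sq_tail`, `cs_H` for the tail, finitely many coefficients) -/
theorem unif_of_coef {ι : Type} {l : Filter ι} {a : ι → SA} {b : SA} {B : ℝ} (hB : ∀ i, ‖a i‖ ≤ B)
    (h : ∀ k, Tendsto (fun i => cf k (a i : H)) l (𝓝 (cf k (b : H)))) :
    TendstoUniformlyOn (fun i z => ev z (a i)) (fun z => ev z b) l (closedBall 0 1) := by
  rw [Metric.tendstoUniformlyOn_iff]
  intro ε hε
  have hM : 0 < |B| + ‖b‖ + 1 := by positivity
  obtain ⟨t, ht⟩ := h8_tail (ε := ε / 2 / (|B| + ‖b‖ + 1)) (by positivity)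
  have h1 : Tendsto (fun i => ∑ k ∈ t, ‖cf k (b : H) - cf k (a i : H)‖) l (𝓝 0) := by
    have : Tendsto (fun i => ∑ k ∈ t, ‖cf k (b : H) - cf k (a i : H)‖) l
        (𝓝 (∑ k ∈ t, ‖cf k (b : H) - cf k (b : H)‖)) :=
      tendsto_finsetSum _ fun k _ => (tendsto_const_nhds.sub (h k)).norm
    simpa using this
  filter_upwards [h1.eventually (gt_mem_nhds (half_pos hε))] with i hi z hz
  rw [dist_eq_norm, ← map_sub]
  have hz' : ‖z‖ ≤ 1 := by simpa using hz
  refine lt_of_le_of_lt ((h8_norm_ev_le hz' _).trans (ht _)) ?_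
  have h2 : ‖dd ((b - a i : SA) : H)‖ ≤ |B| + ‖b‖ + 1 := by
    refine (h8_norm_dd_le _).trans ?_
    have h3 : ‖((b - a i : SA) : H)‖ = ‖b - a i‖ := rfl
    rw [h3]
    linarith [norm_sub_le b (a i), hB i, le_abs_self B]
  have h4 : ε / 2 / (|B| + ‖b‖ + 1) * ‖dd ((b - a i : SA) : H)‖ ≤ ε / 2 := by
    refine (mul_le_mul_of_nonneg_left h2 (by positivity)).trans ?_
    rw [div_mul_cancel₀ _ hM.ne']
  have h5 : ∑ k ∈ t, ‖cf k ((b - a i : SA) : H)‖ = ∑ k ∈ t, ‖cf k (b : H) - cf k (a i : H)‖ :=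
    Finset.sum_congr rfl fun k _ => by rw [← map_sub]; rfl
  rw [h5]
  linarith

/-- `c k = lim_𝒰 cf k (a n)` (`IsCompact.ultrafilter_le_nhds` on a closed ball), finite sums of `‖i k c k‖²` are `≤ B²`, `exists_H`;
`unif_of_coef`, `weak_of_coef` with `v = (JJ.toContinuousLinearMap).adjoint h` -/
theorem cpt (𝒰 : Ultrafilter ℕ) (a : ℕ → SA) (B : ℝ) (hB : ∀ k, ‖a k‖ ≤ B) : ∃ b : SA,
    TendstoUniformlyOn (fun k z => ev z (a k)) (fun z => ev z b) 𝒰 (closedBall 0 1) ∧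
      ∀ h : Lp ℂ 2 mu, Tendsto (fun k => ⟪h, JJ (dd (a k : H))⟫_ℂ) 𝒰 (𝓝 ⟪h, JJ (dd (b : H))⟫_ℂ) := by
  have hB' : ∀ n, ‖(a n : H)‖ ≤ B := hB
  have hdd : ∀ n, ‖dd (a n : H)‖ ≤ B := fun n => (h8_norm_dd_le _).trans (hB' n)
  have hc : ∀ k : ℤ, ∃ c : ℂ, Tendsto (fun n => cf k (a n : H)) 𝒰 (𝓝 c) := fun k => by
    obtain ⟨c, -, hc⟩ := (isCompact_closedBall (0 : ℂ) B).ultrafilter_le_nhds'
      (𝒰.map fun n => cf k (a n : H)) (Ultrafilter.mem_map.2 (Filter.univ_mem' fun n => by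
        simpa using (h8_norm_cf_le k _).trans (hB' n)))
    exact ⟨c, hc⟩
  choose c hc using hc
  have hsum : Summable fun k : ℤ => ‖Complex.I * k * c k‖ ^ 2 := by
    refine summable_of_sum_le (c := B ^ 2) (fun k => sq_nonneg _) fun s => ?_
    have h1 : Tendsto (fun n => ∑ k ∈ s, ‖Complex.I * k * cf k (a n : H)‖ ^ 2) 𝒰
        (𝓝 (∑ k ∈ s, ‖Complex.I * k * c k‖ ^ 2)) :=
      tendsto_finsetSum _ fun k _ => ((hc k).const_mul _).norm.pow 2
    refine le_of_tendsto' h1 fun n => ?_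
    have h2 := sum_le_hasSum s (fun k _ => sq_nonneg _) (hasSum_sq (dd (a n : H)))
    simp only [cL_dd] at h2
    exact h2.trans (pow_le_pow_left₀ (norm_nonneg _) (hdd n) 2)
  obtain ⟨x, hx⟩ := exists_H hsum
  have hxA : x ∈ SA := fun k hk => by
    rw [hx]
    refine tendsto_nhds_unique (hc k) ?_
    have : (fun n => cf k (a n : H)) = fun _ => 0 := funext fun n => (a n).2 k hk
    rw [this]; exact tendsto_const_nhds
  refine ⟨⟨x, hxA⟩, unif_of_coef hB fun k => ?_, fun h => ?_⟩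
  · change Tendsto _ _ (𝓝 (cf k x))
    rw [hx]; exact hc k
  · have key : ∀ u : L2, ⟪h, JJ u⟫_ℂ =
        ⟪ContinuousLinearMap.adjoint JJ.toContinuousLinearMap h, u⟫_ℂ := fun u => by
      rw [ContinuousLinearMap.adjoint_inner_left]; rfl
    simp only [key]
    refine weak_of_coef hdd (fun k => ?_) _
    simp only [cL_dd]
    rw [hx]; exact (hc k).const_mul _

theorem h8_cL_dd_nonpos (a : SA) {k : ℤ} (hk : k ≤ 0) : cL k (dd (a : H)) = 0 := by
  rw [cL_dd]
  rcases hk.lt_or_eq with h | h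
  · rw [a.2 k h, mul_zero]
  · simp [h]

theorem h8_cL_mulL_nonpos (a c : SA) {j : ℤ} (hj : j ≤ 0) : cL j (mulL (fn (c : H)) (dd (a : H))) = 0 := by
  have h1 := (hasSum_fn (c : H)).mapL ((cL j).comp (mulL.flip (dd (a : H))))
  have h2 : (fun m : ℤ => ((cL j).comp (mulL.flip (dd (a : H)))) (cf m (c : H) • (fourier m : CC))) =
      fun _ => 0 := by
    funext m
    rw [map_smul, ContinuousLinearMap.comp_apply, ContinuousLinearMap.flip_apply, cL_mulL_fourier]
    rcases lt_or_ge m 0 with h | h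
    · rw [c.2 m h, zero_smul]
    · rw [h8_cL_dd_nonpos a (by omega), smul_zero]
  rw [h2] at h1
  exact h1.unique hasSum_zero

/-- `G = mulL (fn c) (dd a)` has `cL j G = 0` for `j ≤ 0` (`hasSum_fn`, `cL_mulL_fourier`, `cL_dd`); expand `dd b` (`hasSum_ee`),
`integral_mul_eq`, `integral_mul_ee`; `integral_mu`, `coe_JJ` -/
theorem orth (a b c : SA) : ∫ θ, JJ (dd (a : H)) θ * JJ (dd (b : H)) θ * val θ (c : H) ∂mu = 0 := by
  set G : L2 := mulL (fn (c : H)) (dd (a : H)) with hG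
  have h1 : ∫ θ, JJ (dd (a : H)) θ * JJ (dd (b : H)) θ * val θ (c : H) ∂mu =
      ∫ θ : ℝ, G (θ : TT) * dd (b : H) (θ : TT) ∂mu := by
    refine integral_congr_ae ?_
    filter_upwards [coe_JJ (dd (a : H)), coe_JJ (dd (b : H)),
      ae_mu (coe_mulL (fn (c : H)) (dd (a : H)))] with θ ha hb hc
    rw [ha, hb, hG, hc, val_apply]; ring
  have h2 : ∫ θ : ℝ, G (θ : TT) * dd (b : H) (θ : TT) ∂mu = ∫ x, G x * dd (b : H) x ∂hm :=
    integral_mu (F := fun x => G x * dd (b : H) x)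
      ((Lp.aestronglyMeasurable G).mul (Lp.aestronglyMeasurable (dd (b : H))))
  rw [h1, h2, integral_mul_eq]
  have h3 := (hasSum_ee (dd (b : H))).mapL (innerSL ℂ (star G))
  have h4 : (fun k : ℤ => (innerSL ℂ (star G)) (cL k (dd (b : H)) • ee k)) = fun _ => 0 := by
    funext k
    rw [map_smul, innerSL_apply_apply, ← integral_mul_eq, integral_mul_ee]
    rcases le_or_gt k 0 with h | h
    · rw [h8_cL_dd_nonpos b h, zero_smul]
    · rw [hG, h8_cL_mulL_nonpos a c (by omega), smul_zero]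
  rw [h4] at h3
  exact h3.unique hasSum_zero

theorem pd_geom {r : ℝ} (hr : r ≠ 1) (n : ℕ) :
    ((1 - r : ℂ)⁻¹) * (1 - (r : ℂ) ^ n) = ∑ i ∈ Finset.range n, (r : ℂ) ^ i := by
  have h1 : (1 - r : ℂ) ≠ 0 := by
    rw [sub_ne_zero]
    exact_mod_cast hr.symm
  rw [← mul_neg_geom_sum, ← mul_assoc, inv_mul_cancel₀ h1, one_mul]

theorem pd_coef (a : SA) {r : ℝ} (hr : r ∈ Ioo (0 : ℝ) 1) (k : ℤ) :
    cL k (((1 - r : ℂ)⁻¹) • toL (fn (a : H) - fn (dilH r a))) =
      (∑ i ∈ Finset.range k.toNat, (r : ℂ) ^ i) * cf k (a : H) := by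
  have hn : ‖(r : ℂ)‖ ≤ 1 := by
    rw [Complex.norm_real, Real.norm_eq_abs, abs_of_pos hr.1]; exact hr.2.le
  rw [map_smul, map_sub, map_sub, ← cf_apply, ← cf_apply, cf_dilH, rt_eq hn, ← pd_geom hr.2.ne, smul_eq_mul]
  ring

theorem pd_lim (a : SA) (k : ℤ) : cL k ((-Complex.I) • dd (a : H)) = (k.toNat : ℂ) * cf k (a : H) := by
  rw [map_smul, cL_dd, smul_eq_mul]
  rcases lt_or_ge k 0 with hk | hk
  · rw [a.2 k hk]; simp
  · have : ((k.toNat : ℕ) : ℂ) = (k : ℂ) := by exact_mod_cast Int.toNat_of_nonneg hk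
    rw [this]
    linear_combination (-(k : ℂ) * cf k (a : H)) * Complex.I_mul_I

/-- `strong_of_coef`: `|(1 - r^k)/(1 - r)| ≤ k`, limit `k` -/
theorem tendsto_radial (a : SA) : Tendsto (fun r : ℝ => ((1 - r : ℂ)⁻¹) • toL (fn (a : H) - fn (dilH r a)))
    (𝓝[<] 1) (𝓝 ((-Complex.I) • dd (a : H))) := by
  have hI : Ioo (0 : ℝ) 1 ∈ 𝓝[<] (1 : ℝ) := Ioo_mem_nhdsLT zero_lt_one
  refine strong_of_coef (g' := (-Complex.I) • dd (a : H)) ?_ (fun k => le_rfl) fun k => ?_
  · filter_upwards [hI] with r hr k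
    rw [pd_coef a hr, pd_lim, norm_mul, norm_mul]
    refine mul_le_mul_of_nonneg_right ?_ (norm_nonneg _)
    refine (norm_sum_le _ _).trans ?_
    rw [Complex.norm_natCast]
    refine (Finset.sum_le_card_nsmul _ _ 1 fun i _ => ?_).trans (by simp)
    rw [norm_pow, Complex.norm_real, Real.norm_eq_abs, abs_of_pos hr.1]
    exact pow_le_one₀ hr.1.le hr.2.le
  · rw [pd_lim]
    have hc : Continuous fun r : ℝ => (∑ i ∈ Finset.range k.toNat, (r : ℂ) ^ i) * cf k (a : H) := by fun_prop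
    have h1 := (hc.tendsto 1).mono_left (nhdsWithin_le_nhds (s := Iio 1))
    simp only [Complex.ofReal_one, one_pow, Finset.sum_const, Finset.card_range, nsmul_eq_mul, mul_one] at h1
    refine h1.congr' ?_
    filter_upwards [hI] with r hr
    rw [pd_coef a hr]

theorem val_dilH (a : SA) (θ : ℝ) {r : ℝ} (hr : r ∈ Icc (0 : ℝ) 1) : val θ (dilH r a) = ev (circleMap 0 r θ) a := by
  have hn : ‖(r : ℂ)‖ ≤ 1 := by
    rw [Complex.norm_real, Real.norm_eq_abs, abs_of_nonneg hr.1]; exact hr.2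
  rw [← coe_dilA, ← ev_val, ev_dilA a hn (by simp)]
  congr 2
  simp [circleMap]

/-- maximum principle (`Complex.norm_le_of_forall_mem_frontier_norm_le`) for `w ↦ ∑ conj (U i θ) * ev w (U i)`, Cauchy-Schwarz on the circle -/
theorem re_radial {κ : Type} [Fintype κ] (U : κ → SA) (h : ∀ θ, ∑ i, ‖val θ (U i : H)‖ ^ 2 = 1) (θ : ℝ) {r : ℝ}
    (hr : r ∈ Icc (0 : ℝ) 1) : 0 ≤ (∑ i, star (val θ (U i : H)) * (val θ (U i : H) - val θ (dilH r (U i)))).re := by
  set f : ℂ → ℂ := fun w => ∑ i, star (val θ (U i : H)) * ev w (U i) with hf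
  have hd : DiffContOnCl ℂ f (ball 0 1) := by
    refine ⟨DifferentiableOn.fun_sum fun i _ => (ev_diff (U i)).1.const_mul _, ?_⟩
    exact continuousOn_finsetSum _ fun i _ => continuousOn_const.mul (ev_diff (U i)).2
  have hb : ∀ z ∈ frontier (ball (0 : ℂ) 1), ‖f z‖ ≤ 1 := by
    intro z hz
    rw [frontier_ball _ one_ne_zero, ← abs_one, ← range_circleMap] at hz
    obtain ⟨φ, rfl⟩ := hz
    refine (norm_sum_le _ _).trans ?_
    simp only [norm_mul, norm_star, ev_val]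
    have h1 := Finset.sum_mul_sq_le_sq_mul_sq Finset.univ (fun i => ‖val θ (U i : H)‖) fun i => ‖val φ (U i : H)‖
    rw [h θ, h φ] at h1
    nlinarith [h1]
  have hz : circleMap 0 r θ ∈ closure (ball (0 : ℂ) 1) := by
    rw [closure_ball _ one_ne_zero, mem_closedBall_zero_iff, norm_circleMap_zero, abs_of_nonneg hr.1]
    exact hr.2
  have h1 := Complex.norm_le_of_forall_mem_frontier_norm_le isBounded_ball hd hb hz
  have h2 : (∑ i, star (val θ (U i : H)) * (val θ (U i : H) - val θ (dilH r (U i)))) = 1 - f (circleMap 0 r θ) := by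
    simp only [mul_sub, Finset.sum_sub_distrib, hf, val_dilH _ θ hr]
    congr 1
    have := congrArg (fun t : ℝ => (t : ℂ)) (h θ)
    simp only [Complex.ofReal_sum, Complex.ofReal_one] at this
    rw [← this]
    refine Finset.sum_congr rfl fun i _ => ?_
    rw [Complex.star_def, Complex.conj_mul', Complex.ofReal_pow]
  rw [h2, Complex.sub_re, Complex.one_re]
  linarith [Complex.re_le_norm (f (circleMap 0 r θ))]

theorem pd_coe_sum {κ : Type} (s : Finset κ) (F : κ → L2) :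
    ((∑ i ∈ s, F i : L2) : TT → ℂ) =ᵐ[hm] fun x => ∑ i ∈ s, F i x := by
  classical
  induction s using Finset.induction_on with
  | empty => exact Lp.coeFn_zero ℂ 2 hm
  | insert i s hi ih =>
    rw [Finset.sum_insert hi]
    filter_upwards [Lp.coeFn_add (F i) (∑ j ∈ s, F j), ih] with x h1 h2
    rw [h1, Pi.add_apply, h2, Finset.sum_insert hi]

theorem pd_coe_Phi {κ : Type} [Fintype κ] (f : κ → CC) (G : κ → L2) :
    ((∑ i, mulL (star (f i)) (G i) : L2) : TT → ℂ) =ᵐ[hm] fun x => ∑ i, star (f i x) * G i x := by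
  filter_upwards [pd_coe_sum Finset.univ fun i => mulL (star (f i)) (G i),
    ae_all_iff.2 fun i => coe_mulL (star (f i)) (G i)] with x h1 h2
  rw [h1]
  exact Finset.sum_congr rfl fun i _ => by rw [h2 i]; rfl

/-- `Φ r = ∑ mulL (star (fn (U i))) ((1-r)⁻¹ • toL ..)` tends to `∑ mulL (star (fn (U i))) (-I • dd (U i))`; `isClosed_re_nonneg`;
every point of `TT` is `(θ : TT)` (`QuotientAddGroup.mk_surjective`) -/
theorem pos {κ : Type} [Fintype κ] (U : κ → SA) (h : ∀ θ, ∑ i, ‖val θ (U i : H)‖ ^ 2 = 1) :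
    ∀ᵐ θ ∂mu, 0 ≤ (∑ i, star (val θ (U i : H)) * (-Complex.I * JJ (dd (U i : H)) θ)).re := by
  have ht : Tendsto (fun r : ℝ => ∑ i, mulL (star (fn (U i : H)))
      (((1 - r : ℂ)⁻¹) • toL (fn (U i : H) - fn (dilH r (U i))))) (𝓝[<] 1)
      (𝓝 (∑ i, mulL (star (fn (U i : H))) ((-Complex.I) • dd (U i : H)))) :=
    tendsto_finsetSum _ fun i _ => ((mulL (star (fn (U i : H)))).continuous.tendsto _).comp (tendsto_radial (U i))
  have hm0 := isClosed_re_nonneg.mem_of_tendsto ht (by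
    filter_upwards [Ioo_mem_nhdsLT (zero_lt_one (α := ℝ))] with r hr
    have hA : ∀ i, ((((1 - r : ℂ)⁻¹) • toL (fn (U i : H) - fn (dilH r (U i))) : L2) : TT → ℂ) =ᵐ[hm]
        fun x => (1 - r : ℂ)⁻¹ * (fn (U i : H) x - fn (dilH r (U i)) x) := fun i => by
      filter_upwards [Lp.coeFn_smul ((1 - r : ℂ)⁻¹) (toL (fn (U i : H) - fn (dilH r (U i)))),
        coe_toL (fn (U i : H) - fn (dilH r (U i)))] with x h1 h2
      rw [h1, Pi.smul_apply, h2, smul_eq_mul]; rfl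
    change ∀ᵐ x ∂hm, _
    filter_upwards [pd_coe_Phi (fun i => fn (U i : H))
      fun i => ((1 - r : ℂ)⁻¹) • toL (fn (U i : H) - fn (dilH r (U i))), ae_all_iff.2 hA] with x h1 h2
    rw [h1]
    obtain ⟨θ, rfl⟩ := QuotientAddGroup.mk_surjective x
    have h3 := re_radial U h θ ⟨hr.1.le, hr.2.le⟩
    have h4 : (∑ i, star (fn (U i : H) (θ : TT)) *
        (((1 - r : ℂ)⁻¹) • toL (fn (U i : H) - fn (dilH r (U i))) : L2) (θ : TT)) =
        (((1 - r)⁻¹ : ℝ) : ℂ) * ∑ i, star (val θ (U i : H)) * (val θ (U i : H) - val θ (dilH r (U i))) := by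
      rw [Finset.mul_sum]
      refine Finset.sum_congr rfl fun i _ => ?_
      rw [h2 i, val_apply, val_apply]
      push_cast
      ring
    rw [h4, Complex.re_ofReal_mul]
    exact mul_nonneg (inv_nonneg.2 (by linarith [hr.2])) h3)
  have h5 : ∀ᵐ x ∂hm, 0 ≤ (∑ i, star (fn (U i : H) x) * (-Complex.I * dd (U i : H) x)).re := by
    have hm1 : ∀ᵐ x ∂hm, 0 ≤ ((∑ i, mulL (star (fn (U i : H))) ((-Complex.I) • dd (U i : H)) : L2) x).re := hm0
    filter_upwards [hm1, pd_coe_Phi (fun i => fn (U i : H)) fun i => (-Complex.I) • dd (U i : H),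
      ae_all_iff.2 fun i => Lp.coeFn_smul (-Complex.I) (dd (U i : H))] with x h1 h2 h3
    rw [h2] at h1
    simpa only [h3, Pi.smul_apply, smul_eq_mul] using h1
  filter_upwards [ae_mu h5, ae_all_iff.2 fun i => coe_JJ (dd (U i : H))] with θ h1 h2
  simpa only [h2, val_apply] using h1

end Crest.Agent.R269.C1
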